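import Mathlib

set_option linter.all false

/-! Free groups are residually finite p-groups: unitriangular matrices along a path. -/

namespace Vale.Agent.P215.H604

section Vec

variable {p M : ℕ}

/-- Coordinates, extended by zero. -/
def co (v : Fin (M + 1) → ZMod p) (t : ℕ) : ZMod p := if h : t < M + 1 then v ⟨t, h⟩ else 0

theorem co_add (v w : Fin (M + 1) → ZMod p) (t : ℕ) : co (v + w) t = co v t + co w t := by
  unfold co
  split_ifs <;> simp

theorem co_smul (c : ZMod p) (v : Fin (M + 1) → ZMod p) (t : ℕ) :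
    co (c • v) t = c * co v t := by
  unfold co
  split_ifs <;> simp

theorem co_zero (t : ℕ) : co (0 : Fin (M + 1) → ZMod p) t = 0 := by
  unfold co
  split_ifs <;> simp

theorem co_ext {v w : Fin (M + 1) → ZMod p} (h : ∀ t, co v t = co w t) : v = w := by
  funext i
  have := h i
  unfold co at this
  simpa [i.isLt] using this

theorem co_of_lt {v : Fin (M + 1) → ZMod p} {t : ℕ} (h : M < t) : co v t = 0 := by
  unfold co
  rw [dif_neg (by omega)]

/-- Endomorphisms. -/
abbrev E (p M : ℕ) := Module.End (ZMod p) (Fin (M + 1) → ZMod p)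

/-- Strictly triangular endomorphisms. -/
def Low (N : E p M) : Prop :=
  ∀ (j : ℕ) (v : Fin (M + 1) → ZMod p), (∀ t, j + 1 ≤ t → co v t = 0) →
    ∀ t, j ≤ t → co (N v) t = 0

theorem Low.zero : Low (0 : E p M) := fun j v hv t ht => by
  rw [LinearMap.zero_apply, co_zero]

theorem Low.add {N N' : E p M} (h : Low N) (h' : Low N') : Low (N + N') := fun j v hv t ht => by
  rw [LinearMap.add_apply, co_add, h j v hv t ht, h' j v hv t ht, add_zero]

theorem Low.mul {N N' : E p M} (h : Low N) (h' : Low N') : Low (N * N') := fun j v hv t ht => by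
  rw [Module.End.mul_apply]
  exact h j (N' v) (fun t ht => h' j v hv t (by omega)) t ht

theorem Low.pow_apply {N : E p M} (h : Low N) : ∀ (k j : ℕ) (v : Fin (M + 1) → ZMod p),
    (∀ t, j + k ≤ t → co v t = 0) → ∀ t, j ≤ t → co ((N ^ k) v) t = 0 := by
  intro k
  induction k with
  | zero =>
    intro j v hv t ht
    rw [pow_zero, Module.End.one_apply]
    exact hv t (by omega)
  | succ k ih =>
    intro j v hv t ht
    rw [pow_succ', Module.End.mul_apply]
    refine h j _ (fun t ht => ?_) t ht
    exact ih (j + 1) v (fun t ht => hv t (by omega)) t ht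

theorem Low.pow_eq_zero {N : E p M} (h : Low N) {k : ℕ} (hk : M + 1 ≤ k) : N ^ k = 0 := by
  refine LinearMap.ext fun v => co_ext fun t => ?_
  rw [LinearMap.zero_apply, co_zero]
  exact h.pow_apply k 0 v (fun t ht => co_of_lt (by omega)) t (Nat.zero_le t)

theorem p_eq_zero : ((p : ℕ) : E p M) = 0 := by
  refine LinearMap.ext fun v => ?_
  rw [Module.End.natCast_apply, LinearMap.zero_apply]
  funext i
  simp

theorem frob (hp : p.Prime) (N : E p M) (s : ℕ) : (1 + N) ^ (p ^ s) = 1 + N ^ (p ^ s) := by
  obtain ⟨r, hr⟩ := (Commute.one_left N).exists_add_pow_prime_pow_eq hp s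
  rw [hr, p_eq_zero, one_pow]
  simp

theorem lowU_mul {g h : (E p M)ˣ} (hg : Low ((g : E p M) - 1)) (hh : Low ((h : E p M) - 1)) :
    Low (((g * h : (E p M)ˣ) : E p M) - 1) := by
  have e : ((g * h : (E p M)ˣ) : E p M) - 1 = ((g : E p M) - 1) * ((h : E p M) - 1) +
      (((g : E p M) - 1) + ((h : E p M) - 1)) := by
    rw [Units.val_mul]
    simp only [sub_mul, mul_sub, one_mul, mul_one]
    abel
  rw [e]
  exact (hg.mul hh).add (hg.add hh)

theorem lowU_one : Low (((1 : (E p M)ˣ) : E p M) - 1) := by
  rw [Units.val_one, sub_self]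
  exact Low.zero

theorem lowU_pow {g : (E p M)ˣ} (hg : Low ((g : E p M) - 1)) (k : ℕ) :
    Low (((g ^ k : (E p M)ˣ) : E p M) - 1) := by
  induction k with
  | zero =>
    rw [pow_zero]
    exact lowU_one
  | succ k ih =>
    rw [pow_succ]
    exact lowU_mul ih hg

theorem lowU_pow_eq_one (hp : p.Prime) {g : (E p M)ˣ} (hg : Low ((g : E p M) - 1)) {s : ℕ}
    (hs : M + 1 ≤ p ^ s) : g ^ (p ^ s) = 1 := by
  apply Units.ext
  rw [Units.val_pow_eq_pow_val, Units.val_one]
  have e : (g : E p M) = 1 + ((g : E p M) - 1) := by abel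
  rw [e, frob hp, hg.pow_eq_zero hs, add_zero]

theorem le_pp (hp : p.Prime) (M : ℕ) : M + 1 ≤ p ^ (M + 1) := (Nat.lt_pow_self hp.one_lt).le

/-- The group of unitriangular automorphisms. -/
def UT (p M : ℕ) [hp : Fact p.Prime] : Subgroup (E p M)ˣ where
  carrier := {g | Low ((g : E p M) - 1)}
  mul_mem' := fun hg hh => lowU_mul hg hh
  one_mem' := lowU_one
  inv_mem' := by
    intro g hg
    have h1 := lowU_pow_eq_one hp.out hg (le_pp hp.out M)
    have h2 : g⁻¹ = g ^ (p ^ (M + 1) - 1) := by
      rw [inv_eq_iff_mul_eq_one, ← pow_succ']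
      rw [Nat.sub_add_cancel (Nat.one_le_pow _ _ hp.out.pos)]
      exact h1
    have h3 := lowU_pow hg (p ^ (M + 1) - 1)
    rw [← h2] at h3
    exact h3

theorem finite_UT [hp : Fact p.Prime] : Finite (UT p M) := by
  haveI : Finite (E p M) := Finite.of_injective
    (fun f : E p M => (f : (Fin (M + 1) → ZMod p) → (Fin (M + 1) → ZMod p)))
    DFunLike.coe_injective
  haveI : Finite (E p M)ˣ := Finite.of_injective (fun u : (E p M)ˣ => (u : E p M))
    (fun _ _ h => Units.ext h)
  infer_instance

theorem UT_pow [hp : Fact p.Prime] (g : UT p M) : g ^ (p ^ (M + 1)) = 1 := by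
  apply Subtype.ext
  rw [Subgroup.coe_pow, Subgroup.coe_one]
  exact lowU_pow_eq_one hp.out g.2 (le_pp hp.out M)

theorem isPGroup_UT [hp : Fact p.Prime] : IsPGroup p (UT p M) := fun g => ⟨M + 1, UT_pow g⟩

end Vec

section Path

variable {p : ℕ} {α : Type} [DecidableEq α]

/-- The shift along the edges with the label `x`. -/
def Nl (p : ℕ) (D : List α) (x : α) : E p D.length where
  toFun v := fun t => if D[(t : ℕ)]? = some x then co v (t + 1) else 0
  map_add' v w := by
    funext t
    by_cases h : D[(t : ℕ)]? = some x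
    · simp only [h, if_true, co_add, Pi.add_apply]
    · simp only [h, if_false, Pi.add_apply, add_zero]
  map_smul' c v := by
    funext t
    by_cases h : D[(t : ℕ)]? = some x
    · simp only [h, if_true, co_smul, Pi.smul_apply, RingHom.id_apply, smul_eq_mul]
    · simp only [h, if_false, Pi.smul_apply, smul_eq_mul, mul_zero]

variable {D : List α} {x : α}

theorem co_Nl (v : Fin (D.length + 1) → ZMod p) (t : ℕ) :
    co (Nl p D x v) t = if D[t]? = some x then co v (t + 1) else 0 := by
  by_cases h : t < D.length + 1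
  · conv_lhs => unfold co
    rw [dif_pos h]
    rfl
  · have h2 : D[t]? = none := List.getElem?_eq_none (by omega)
    rw [h2, if_neg (by simp), co_of_lt (by omega)]

theorem low_Nl : Low (Nl p D x) := by
  intro j v hv t ht
  rw [co_Nl]
  split_ifs
  · exact hv _ (by omega)
  · rfl

theorem co_Nl_run (v : Fin (D.length + 1) → ZMod p) : ∀ (j t : ℕ),
    (∀ i, i < j → D[t + i]? = some x) → co ((Nl p D x ^ j) v) t = co v (t + j) := by
  intro j
  induction j with
  | zero =>
    intro t _
    rw [pow_zero, Module.End.one_apply, add_zero]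
  | succ j ih =>
    intro t h
    have h00 : D[t]? = some x := h 0 (by omega)
    rw [pow_succ', Module.End.mul_apply, co_Nl, if_pos h00, ih (t + 1) (fun i hi => by
      have := h (i + 1) (by omega)
      rwa [show t + (i + 1) = t + 1 + i by omega] at this)]
    congr 1
    omega

theorem co_Nl_stop (v : Fin (D.length + 1) → ZMod p) {j t : ℕ} (hj : 1 ≤ j)
    (h : D[t]? ≠ some x) : co ((Nl p D x ^ j) v) t = 0 := by
  obtain ⟨k, rfl⟩ : ∃ k, j = k + 1 := ⟨j - 1, by omega⟩
  rw [pow_succ', Module.End.mul_apply, co_Nl, if_neg h]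

theorem co_Nl_below {L : ℕ} (hL : L = 0 ∨ D[L - 1]? ≠ some x) (j : ℕ) :
    ∀ v : Fin (D.length + 1) → ZMod p, (∀ t, t < L → co v t = 0) →
      ∀ t, t < L → co ((Nl p D x ^ j) v) t = 0 := by
  induction j with
  | zero =>
    intro v hv t ht
    rw [pow_zero, Module.End.one_apply]
    exact hv t ht
  | succ j ih =>
    intro v hv t ht
    rw [pow_succ', Module.End.mul_apply, co_Nl]
    split_ifs with h
    · rcases Nat.lt_or_ge (t + 1) L with h1 | h1
      · exact ih v hv _ h1
      · exfalso
        rcases hL with h2 | h2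
        · omega
        · apply h2
          rw [show L - 1 = t by omega]
          exact h
    · rfl

theorem step_nat {q L : ℕ} (hq : 1 ≤ q) (hrun : ∀ i, i < q → D[L + i]? = some x)
    (hstop : D[L + q]? ≠ some x) (hL : L = 0 ∨ D[L - 1]? ≠ some x)
    (v : Fin (D.length + 1) → ZMod p) (hv : ∀ t, t < L → co v t = 0) (m : ℕ) :
    (∀ t, t < L → co (((1 + Nl p D x ^ q) ^ m) v) t = 0) ∧
      co (((1 + Nl p D x ^ q) ^ m) v) (L + q) = co v (L + q) ∧
      co (((1 + Nl p D x ^ q) ^ m) v) L = co v L + m * co v (L + q) := by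
  induction m with
  | zero =>
    rw [pow_zero, Module.End.one_apply]
    refine ⟨hv, rfl, ?_⟩
    simp
  | succ m ih =>
    obtain ⟨h1, h2, h3⟩ := ih
    rw [pow_succ', Module.End.mul_apply]
    set u := ((1 + Nl p D x ^ q) ^ m) v with hu
    have e : ∀ t, co ((1 + Nl p D x ^ q) u) t = co u t + co ((Nl p D x ^ q) u) t := by
      intro t
      rw [LinearMap.add_apply, Module.End.one_apply, co_add]
    refine ⟨fun t ht => ?_, ?_, ?_⟩
    · rw [e, h1 t ht, co_Nl_below hL q u h1 t ht, add_zero]
    · rw [e, co_Nl_stop u hq hstop, h2, add_zero]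
    · rw [e, co_Nl_run u q L hrun, h2, h3]
      push_cast
      ring

/-- The automorphism attached to the letter `x`. -/
noncomputable def Al [hp : Fact p.Prime] (D : List α) (x : α) : UT p D.length :=
  ⟨(IsNilpotent.isUnit_one_add (⟨D.length + 1, low_Nl.pow_eq_zero le_rfl⟩ :
    IsNilpotent (Nl p D x))).unit, by
      show Low (_ - 1)
      rw [IsUnit.unit_spec, add_sub_cancel_left]
      exact low_Nl⟩

theorem coe_Al [hp : Fact p.Prime] (D : List α) (x : α) :
    (((Al D x : UT p D.length) : (E p D.length)ˣ) : E p D.length) = 1 + Nl p D x := by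
  unfold Al
  rw [IsUnit.unit_spec]

/-- The action on vectors. -/
def act [hp : Fact p.Prime] {M : ℕ} (g : UT p M) : E p M := ((g : (E p M)ˣ) : E p M)

theorem act_mul [hp : Fact p.Prime] {M : ℕ} (g h : UT p M) : act (g * h) = act g * act h := rfl

theorem act_one [hp : Fact p.Prime] {M : ℕ} : act (1 : UT p M) = 1 := rfl

theorem act_pow [hp : Fact p.Prime] {M : ℕ} (g : UT p M) (k : ℕ) : act (g ^ k) = act g ^ k := by
  unfold act
  rw [Subgroup.coe_pow, Units.val_pow_eq_pow_val]

theorem act_zpow [hp : Fact p.Prime] (D : List α) (x : α) (a : ℕ) (c : ℤ)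
    (hc : ¬ (p : ℤ) ∣ c) :
    ∃ m : ℕ, (m : ZMod p) ≠ 0 ∧
      act ((Al D x : UT p D.length) ^ ((p : ℤ) ^ a * c)) = (1 + Nl p D x ^ (p ^ a)) ^ m := by
  set s := D.length + 1 with hs
  have hpp : (0 : ℤ) < (p : ℤ) ^ s := by
    have := hp.out.pos
    positivity
  obtain ⟨m, hm⟩ := Int.eq_ofNat_of_zero_le (Int.emod_nonneg c hpp.ne')
  have hdiv : c = (m : ℤ) + (p : ℤ) ^ s * (c / (p : ℤ) ^ s) := by
    have := Int.emod_add_mul_ediv c ((p : ℤ) ^ s)
    omega
  refine ⟨m, ?_, ?_⟩
  · intro h
    apply hc
    have h1 : (p : ℤ) ∣ (m : ℤ) := by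
      rw [← ZMod.intCast_zmod_eq_zero_iff_dvd]
      exact_mod_cast h
    rw [hdiv]
    exact dvd_add h1 (Dvd.dvd.mul_right (dvd_pow_self _ (by omega)) _)
  · have h1 : ((Al D x : UT p D.length) ^ ((p : ℤ) ^ a * c)) =
        ((Al D x : UT p D.length) ^ (p ^ a)) ^ m := by
      rw [zpow_mul]
      have e1 : (Al D x : UT p D.length) ^ ((p : ℤ) ^ a) = (Al D x : UT p D.length) ^ (p ^ a) := by
        rw [← zpow_natCast]
        push_cast
        rfl
      rw [e1]
      conv_lhs => rw [hdiv]
      rw [zpow_add, zpow_natCast, zpow_mul]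
      have e2 : ((Al D x : UT p D.length) ^ (p ^ a)) ^ ((p : ℤ) ^ s) = 1 := by
        have := UT_pow ((Al D x : UT p D.length) ^ (p ^ a))
        rw [← zpow_natCast] at this
        push_cast at this
        exact this
      rw [e2, one_zpow, mul_one]
    rw [h1, act_pow, act_pow]
    congr 1
    have e3 : act (Al D x : UT p D.length) = 1 + Nl p D x := coe_Al D x
    rw [e3, frob hp.out]

end Path

section Chain

variable {p : ℕ} {α : Type} [DecidableEq α]

/-- The path of a list of syllables. -/
def path (p : ℕ) (a : ℤ → ℕ) (l : List (α × ℤ)) : List α :=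
  l.flatMap fun s => List.replicate (p ^ a s.2) s.1

theorem path_append (a : ℤ → ℕ) (l l' : List (α × ℤ)) :
    path p a (l ++ l') = path p a l ++ path p a l' := by
  simp [path]

theorem path_cons (a : ℤ → ℕ) (s : α × ℤ) (l : List (α × ℤ)) :
    path p a (s :: l) = List.replicate (p ^ a s.2) s.1 ++ path p a l := by
  simp [path]

theorem path_single (a : ℤ → ℕ) (s : α × ℤ) :
    path p a [s] = List.replicate (p ^ a s.2) s.1 := by
  simp [path]

/-- The last unit vector. -/
def ev (p M : ℕ) : Fin (M + 1) → ZMod p := fun t => if (t : ℕ) = M then 1 else 0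

theorem co_ev (p M t : ℕ) : co (ev p M) t = if t = M then 1 else 0 := by
  unfold co ev
  split_ifs with h1 h2 h2
  · rfl
  · rfl
  · omega
  · rfl

theorem chain_main [hp : Fact p.Prime] (a : ℤ → ℕ) (c : ℤ → ℤ)
    (hac : ∀ n : ℤ, n ≠ 0 → n = (p : ℤ) ^ a n * c n ∧ ¬ (p : ℤ) ∣ c n)
    (l : List (α × ℤ)) (h0 : ∀ s ∈ l, s.2 ≠ 0) (hc : l.IsChain fun s s' => s.1 ≠ s'.1) :
    ∀ (l₂ l₁ : List (α × ℤ)), l₁ ++ l₂ = l →
      (∀ t, t < (path p a l₁).length → co (act ((l₂.map fun s =>
        (Al (path p a l) s.1 : UT p (path p a l).length) ^ s.2).prod)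
          (ev p (path p a l).length)) t = 0) ∧
      co (act ((l₂.map fun s =>
        (Al (path p a l) s.1 : UT p (path p a l).length) ^ s.2).prod)
          (ev p (path p a l).length)) (path p a l₁).length ≠ 0 := by
  intro l₂
  induction l₂ with
  | nil =>
    intro l₁ hl
    rw [List.append_nil] at hl
    subst hl
    rw [List.map_nil, List.prod_nil, act_one, Module.End.one_apply]
    refine ⟨fun t ht => ?_, ?_⟩
    · rw [co_ev, if_neg (by omega)]
    · rw [co_ev, if_pos rfl]
      exact one_ne_zero
  | cons s l₃ ih =>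
    intro l₁ hl
    obtain ⟨x, n⟩ := s
    obtain ⟨i1, i2⟩ := ih (l₁ ++ [(x, n)]) (by rw [← hl]; simp)
    have hn : n ≠ 0 := h0 (x, n) (by rw [← hl]; simp)
    obtain ⟨e1, e2⟩ := hac n hn
    have hlen : (path p a (l₁ ++ [(x, n)])).length = (path p a l₁).length + p ^ a n := by
      rw [path_append, path_single, List.length_append, List.length_replicate]
    rw [hlen] at i1 i2
    have hq : 1 ≤ p ^ a n := Nat.one_le_pow _ _ hp.out.pos
    have hD : path p a l = path p a l₁ ++ (List.replicate (p ^ a n) x ++ path p a l₃) := by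
      rw [← hl, path_append, path_cons]
    have hcl : List.IsChain (fun s s' : α × ℤ => s.1 ≠ s'.1) (l₁ ++ (x, n) :: l₃) := by
      rw [hl]
      exact hc
    rw [List.isChain_append] at hcl
    obtain ⟨hc1, hc2, hc3⟩ := hcl
    have hrun : ∀ i, i < p ^ a n → (path p a l)[(path p a l₁).length + i]? = some x := by
      intro i hi
      rw [hD, List.getElem?_append_right (by omega), Nat.add_sub_cancel_left,
        List.getElem?_append_left (by rw [List.length_replicate]; exact hi),
        List.getElem?_replicate, if_pos hi]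
    have hstop : (path p a l)[(path p a l₁).length + p ^ a n]? ≠ some x := by
      rw [hD, List.getElem?_append_right (by omega), Nat.add_sub_cancel_left,
        List.getElem?_append_right (by rw [List.length_replicate]), List.length_replicate,
        Nat.sub_self]
      cases l₃ with
      | nil => simp [path]
      | cons s' l₄ =>
        have h1 : x ≠ s'.1 := by
          rw [List.isChain_cons_cons] at hc2
          exact hc2.1
        have hq' : 0 < p ^ a s'.2 := Nat.pow_pos hp.out.pos
        rw [path_cons, List.getElem?_append_left (by rw [List.length_replicate]; exact hq'),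
          List.getElem?_replicate, if_pos hq']
        intro h2
        exact h1 (Option.some.inj h2).symm
    have hL : (path p a l₁).length = 0 ∨ (path p a l)[(path p a l₁).length - 1]? ≠ some x := by
      rcases List.eq_nil_or_concat l₁ with h1 | ⟨l₁', s', h1⟩
      · left
        rw [h1]
        rfl
      · right
        have h2 : s'.1 ≠ x := hc3 s' (by rw [h1]; simp) (x, n) (by simp)
        have hq' : 0 < p ^ a s'.2 := Nat.pow_pos hp.out.pos
        have h3 : path p a l₁ = path p a l₁' ++ List.replicate (p ^ a s'.2) s'.1 := by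
          rw [h1, List.concat_eq_append, path_append, path_single]
        have h4 : (path p a l₁).length = (path p a l₁').length + p ^ a s'.2 := by
          rw [h3, List.length_append, List.length_replicate]
        rw [hD, List.getElem?_append_left (by omega), h4, h3, List.getElem?_append_right (by omega),
          List.getElem?_replicate, if_pos (by omega)]
        intro h5
        exact h2 (Option.some.inj h5)
    obtain ⟨m, hm, hact⟩ := act_zpow (path p a l) x (a n) (c n) e2
    rw [← e1] at hact
    rw [List.map_cons, List.prod_cons, act_mul, Module.End.mul_apply, hact]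
    obtain ⟨s1, s2, s3⟩ := step_nat hq hrun hstop hL _ (fun t ht => i1 t (by omega)) m
    refine ⟨s1, ?_⟩
    rw [s3, i1 _ (by omega), zero_add]
    exact mul_ne_zero hm i2

end Chain

theorem core (p : ℕ) [hp : Fact p.Prime] {α : Type} (l : List (α × ℤ)) (hne : l ≠ [])
    (h0 : ∀ s ∈ l, s.2 ≠ 0) (hc : l.IsChain fun s s' => s.1 ≠ s'.1) :
    ∃ (Q : Type) (_ : Group Q) (A : α → Q), Finite Q ∧ IsPGroup p Q ∧
      (l.map fun s => A s.1 ^ s.2).prod ≠ 1 := by
  classical
  have hex : ∀ n : ℤ, ∃ (a : ℕ) (c : ℤ), n ≠ 0 → n = (p : ℤ) ^ a * c ∧ ¬ (p : ℤ) ∣ c := by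
    intro n
    by_cases hn : n = 0
    · exact ⟨0, 0, fun h => absurd hn h⟩
    · have h1 : FiniteMultiplicity (p : ℤ) n := by
        rw [Int.finiteMultiplicity_iff]
        refine ⟨?_, hn⟩
        rw [Int.natAbs_natCast]
        exact hp.out.ne_one
      obtain ⟨c, h2, h3⟩ := h1.exists_eq_pow_mul_and_not_dvd
      exact ⟨_, c, fun _ => ⟨h2, h3⟩⟩
  choose a c hac using hex
  refine ⟨UT p (path p a l).length, inferInstance, fun x => Al (path p a l) x, finite_UT,
    isPGroup_UT, fun h => ?_⟩
  obtain ⟨-, h2⟩ := chain_main a c hac l h0 hc l [] (by simp)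
  rw [h, act_one, Module.End.one_apply, co_ev] at h2
  apply h2
  rw [if_neg]
  intro h3
  cases l with
  | nil => exact hne rfl
  | cons s l' =>
    have hq' : 0 < p ^ a s.2 := Nat.pow_pos hp.out.pos
    rw [path_cons, List.length_append, List.length_replicate] at h3
    simp only [path, List.flatMap_nil, List.length_nil] at h3
    omega

/-- Free groups are residually finite p-groups. -/
theorem free_resid (p : ℕ) [Fact p.Prime] {α : Type} (w : FreeGroup α) (hw : w ≠ 1) :
    ∃ (Q : Type) (_ : Group Q) (f : FreeGroup α →* Q), Finite Q ∧ IsPGroup p Q ∧ f w ≠ 1 := by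
  classical
  -- the free product of infinite cyclic groups
  let Φ : FreeGroup α →* Monoid.CoprodI (fun _ : α => Multiplicative ℤ) :=
    FreeGroup.lift fun x => Monoid.CoprodI.of (i := x) (Multiplicative.ofAdd (1 : ℤ))
  let Ψ : Monoid.CoprodI (fun _ : α => Multiplicative ℤ) →* FreeGroup α :=
    Monoid.CoprodI.lift fun x => zpowersHom (FreeGroup α) (FreeGroup.of x)
  have hΨ : ∀ u, Ψ (Φ u) = u := by
    intro u
    have : Ψ.comp Φ = MonoidHom.id _ := by
      apply FreeGroup.ext_hom
      intro x
      simp [Φ, Ψ]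
    exact DFunLike.congr_fun this u
  obtain ⟨W, hW⟩ : ∃ W : Monoid.CoprodI.Word (fun _ : α => Multiplicative ℤ), W.prod = Φ w :=
    ⟨Monoid.CoprodI.Word.equiv (Φ w), Monoid.CoprodI.Word.equiv.symm_apply_apply (Φ w)⟩
  have hWne : W.toList ≠ [] := by
    intro h
    apply hw
    rw [← hΨ w, ← hW]
    unfold Monoid.CoprodI.Word.prod
    rw [h]
    simp
  set l : List (α × ℤ) := W.toList.map fun s => (s.1, Multiplicative.toAdd s.2) with hl
  obtain ⟨Q, hQ, A, h1, h2, h3⟩ := core p l (by simpa [hl] using hWne)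
    (by
      intro s hs
      rw [hl, List.mem_map] at hs
      obtain ⟨s', hs', rfl⟩ := hs
      intro h
      exact W.ne_one s' hs' (Multiplicative.toAdd.injective h))
    (by
      rw [hl, List.isChain_map]
      exact W.chain_ne)
  refine ⟨Q, hQ, FreeGroup.lift A, h1, h2, ?_⟩
  intro h4
  apply h3
  let F : Monoid.CoprodI (fun _ : α => Multiplicative ℤ) →* Q :=
    Monoid.CoprodI.lift fun x => zpowersHom Q (A x)
  have hF : ∀ u, F (Φ u) = FreeGroup.lift A u := by
    intro u
    have : F.comp Φ = FreeGroup.lift A := by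
      apply FreeGroup.ext_hom
      intro x
      simp [Φ, F]
    exact DFunLike.congr_fun this u
  rw [← h4, ← hF, ← hW]
  unfold Monoid.CoprodI.Word.prod
  rw [map_list_prod, List.map_map, List.map_map]
  congr 1

end Vale.Agent.P215.H604
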