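import Vale.Agent.P215.R2.H604.FreeP

set_option linter.all false

/-! Elements of the lower central series and of the derived series of a free group are long. -/

namespace Vale.Agent.P215.H604

section LowM

variable {p M : ℕ}

/-- Endomorphisms which lower the support by `m`. -/
def LowM (m : ℕ) (N : E p M) : Prop :=
  ∀ (j : ℕ) (v : Fin (M + 1) → ZMod p), (∀ t, j + m ≤ t → co v t = 0) →
    ∀ t, j ≤ t → co (N v) t = 0

theorem co_sub (v w : Fin (M + 1) → ZMod p) (t : ℕ) : co (v - w) t = co v t - co w t := by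
  unfold co
  split_ifs <;> simp

theorem LowM.add {m : ℕ} {N N' : E p M} (h : LowM m N) (h' : LowM m N') : LowM m (N + N') :=
  fun j v hv t ht => by
    rw [LinearMap.add_apply, co_add, h j v hv t ht, h' j v hv t ht, add_zero]

theorem LowM.sub {m : ℕ} {N N' : E p M} (h : LowM m N) (h' : LowM m N') : LowM m (N - N') :=
  fun j v hv t ht => by
    rw [LinearMap.sub_apply, co_sub, h j v hv t ht, h' j v hv t ht, sub_zero]

theorem LowM.mul {a b : ℕ} {N N' : E p M} (h : LowM a N) (h' : LowM b N') :
    LowM (a + b) (N * N') := fun j v hv t ht => by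
  rw [Module.End.mul_apply]
  exact h j (N' v) (fun t ht => h' (j + a) v (fun t ht => hv t (by omega)) t ht) t ht

theorem LowM.mono {a b : ℕ} {N : E p M} (h : LowM a N) (hab : b ≤ a) : LowM b N :=
  fun j v hv t ht => h j v (fun t ht => hv t (by omega)) t ht

theorem lowM_one : LowM 0 (1 : E p M) := fun j v hv t ht => by
  rw [Module.End.one_apply]
  exact hv t (by omega)

theorem lowM_zero (m : ℕ) : LowM m (0 : E p M) := fun j v hv t ht => by
  rw [LinearMap.zero_apply, co_zero]

variable [hp : Fact p.Prime]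

theorem act_inv_mul (g : UT p M) : act g⁻¹ * act g = 1 := by
  rw [← act_mul, inv_mul_cancel, act_one]

theorem act_mul_inv (g : UT p M) : act g * act g⁻¹ = 1 := by
  rw [← act_mul, mul_inv_cancel, act_one]

theorem lowM_act_sub (g : UT p M) : LowM 1 (act g - 1) := g.2

theorem lowM_act (g : UT p M) : LowM 0 (act g) := by
  have h := lowM_one.add ((lowM_act_sub g).mono (Nat.zero_le 1))
  rwa [add_sub_cancel] at h

theorem lowM_mul_sub {m : ℕ} {g h : UT p M} (hg : LowM m (act g - 1)) (hh : LowM m (act h - 1)) :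
    LowM m (act (g * h) - 1) := by
  have e : act (g * h) - 1 = (act g - 1) * (act h - 1) + ((act g - 1) + (act h - 1)) := by
    rw [act_mul]
    simp only [sub_mul, mul_sub, one_mul, mul_one]
    abel
  rw [e]
  exact ((hg.mul hh).mono (by omega)).add (hg.add hh)

/-- The congruence subgroups. -/
def HM (p M : ℕ) [hp : Fact p.Prime] (m : ℕ) : Subgroup (UT p M) where
  carrier := {g | LowM m (act g - 1) ∧ LowM m (act g⁻¹ - 1)}
  mul_mem' := by
    intro g h hg hh
    refine ⟨lowM_mul_sub hg.1 hh.1, ?_⟩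
    rw [mul_inv_rev]
    exact lowM_mul_sub hh.2 hg.2
  one_mem' := by
    refine ⟨?_, ?_⟩
    · rw [act_one, sub_self]
      exact lowM_zero m
    · rw [inv_one, act_one, sub_self]
      exact lowM_zero m
  inv_mem' := by
    intro g hg
    refine ⟨hg.2, ?_⟩
    rw [inv_inv]
    exact hg.1

theorem mem_HM_one (g : UT p M) : g ∈ HM p M 1 := ⟨lowM_act_sub g, lowM_act_sub g⁻¹⟩

theorem lowM_comm {a b : ℕ} {g h : UT p M} (hg : LowM a (act g - 1)) (hh : LowM b (act h - 1)) :
    LowM (a + b) (act (g * h * g⁻¹ * h⁻¹) - 1) := by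
  have e : act (g * h * g⁻¹ * h⁻¹) - 1 = ((act g - 1) * (act h - 1) - (act h - 1) * (act g - 1)) *
      (act g⁻¹ * act h⁻¹) := by
    have e1 : act h * act g * (act g⁻¹ * act h⁻¹) = 1 := by
      rw [← act_mul, ← act_mul, ← act_mul]
      rw [show h * g * (g⁻¹ * h⁻¹) = 1 by group, act_one]
    have e2 : act (g * h * g⁻¹ * h⁻¹) = act g * act h * (act g⁻¹ * act h⁻¹) := by
      rw [← act_mul, ← act_mul, ← act_mul, mul_assoc (g * h)]
    have e3 : (act g - 1) * (act h - 1) - (act h - 1) * (act g - 1) =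
        act g * act h - act h * act g := by
      simp only [sub_mul, mul_sub, one_mul, mul_one]
      abel
    rw [e2, e3, sub_mul, e1]
  rw [e]
  have h1 : LowM (a + b) ((act g - 1) * (act h - 1) - (act h - 1) * (act g - 1)) :=
    (hg.mul hh).sub ((hh.mul hg).mono (by omega))
  have h2 : LowM 0 (act g⁻¹ * act h⁻¹) := (lowM_act g⁻¹).mul (lowM_act h⁻¹)
  exact h1.mul h2

theorem comm_mem_HM {a b : ℕ} {g h : UT p M} (hg : g ∈ HM p M a) (hh : h ∈ HM p M b) :
    g * h * g⁻¹ * h⁻¹ ∈ HM p M (a + b) := by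
  refine ⟨lowM_comm hg.1 hh.1, ?_⟩
  rw [show (g * h * g⁻¹ * h⁻¹)⁻¹ = h * g * h⁻¹ * g⁻¹ by group]
  exact (lowM_comm hh.1 hg.1).mono (by omega)

theorem lcs_le {G : Type} [Group G] (f : G →* UT p M) (n : ℕ) :
    (⊤ : Subgroup G).lowerCentralSeries n ≤ (HM p M (n + 1)).comap f := by
  induction n with
  | zero => exact fun g _ => mem_HM_one (f g)
  | succ n ih =>
    rw [Subgroup.lowerCentralSeries_succ, Subgroup.commutator_le]
    intro g hg h _
    rw [Subgroup.mem_comap, commutatorElement_def, map_mul, map_mul, map_mul, map_inv, map_inv]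
    exact comm_mem_HM (ih hg) (mem_HM_one (f h))

theorem derived_le {G : Type} [Group G] (f : G →* UT p M) (d : ℕ) :
    derivedSeries G d ≤ (HM p M (2 ^ d)).comap f := by
  induction d with
  | zero => exact fun g _ => mem_HM_one (f g)
  | succ d ih =>
    rw [derivedSeries_succ, Subgroup.commutator_le]
    intro g hg h hh
    rw [Subgroup.mem_comap, commutatorElement_def, map_mul, map_mul, map_mul, map_inv, map_inv]
    have := comm_mem_HM (ih hg) (ih hh)
    rwa [← two_mul, ← pow_succ'] at this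

theorem le_of_mem_HM {m : ℕ} {g : UT p M} (hg : g ∈ HM p M m) (hM : 1 ≤ M)
    (h : co (act g (ev p M)) 0 ≠ 0) : m ≤ M := by
  by_contra hlt
  apply h
  have h1 := hg.1 0 (ev p M) (fun t ht => co_of_lt (by omega)) 0 le_rfl
  rw [LinearMap.sub_apply, Module.End.one_apply, co_sub, co_ev, if_neg (by omega), sub_zero] at h1
  exact h1

end LowM

section Syll

variable {α : Type} [DecidableEq α]

theorem prod_syll_mk (L : List (α × Bool)) :
    ((L.map (fun s => (s.1, if s.2 = true then (1 : ℤ) else -1))).map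
      (fun s : α × ℤ => FreeGroup.of s.1 ^ s.2)).prod = FreeGroup.mk L := by
  induction L with
  | nil => rfl
  | cons s L ih =>
    obtain ⟨x, b⟩ := s
    rw [List.map_cons, List.map_cons, List.prod_cons, ih]
    cases b with
    | true =>
      simp only [if_true, zpow_one]
      rfl
    | false =>
      simp only [Bool.false_eq_true, if_false, zpow_neg, zpow_one]
      rfl

theorem exists_syll (w : FreeGroup α) (hw : w ≠ 1) : ∃ l : List (α × ℤ), l ≠ [] ∧
    (∀ s ∈ l, s.2 ≠ 0) ∧ l.IsChain (fun s s' => s.1 ≠ s'.1) ∧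
    (l.map fun s => FreeGroup.of s.1 ^ s.2).prod = w ∧ l.length ≤ w.norm := by
  classical
  have hex : ∃ n, ∃ l : List (α × ℤ), l.length = n ∧
      (l.map fun s => FreeGroup.of s.1 ^ s.2).prod = w :=
    ⟨_, (w.toWord.map (fun s => (s.1, if s.2 = true then (1 : ℤ) else -1))), rfl, by
      rw [prod_syll_mk, FreeGroup.mk_toWord]⟩
  obtain ⟨l, hl, hlw⟩ := Nat.find_spec hex
  have hmin : ∀ l' : List (α × ℤ), (l'.map fun s => FreeGroup.of s.1 ^ s.2).prod = w →
      l.length ≤ l'.length := fun l' h => by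
    rw [hl]
    exact Nat.find_min' hex ⟨l', rfl, h⟩
  refine ⟨l, ?_, ?_, ?_, hlw, ?_⟩
  · rintro rfl
    apply hw
    rw [← hlw]
    rfl
  · intro s hs h0
    obtain ⟨l₁, l₂, rfl⟩ := List.append_of_mem hs
    have h1 := hmin (l₁ ++ l₂) (by
      rw [← hlw]
      simp [h0])
    simp only [List.length_append, List.length_cons] at h1
    omega
  · rw [List.isChain_iff_forall_rel_of_append_cons_cons]
    intro a b l₁ l₂ hl12 hab
    have h1 := hmin (l₁ ++ (a.1, a.2 + b.2) :: l₂) (by
      rw [← hlw, hl12]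
      simp only [List.map_append, List.map_cons, List.prod_append, List.prod_cons]
      rw [← hab, zpow_add, mul_assoc])
    rw [hl12] at h1
    simp only [List.length_append, List.length_cons] at h1
    omega
  · have h1 := hmin (w.toWord.map (fun s => (s.1, if s.2 = true then (1 : ℤ) else -1))) (by
      rw [prod_syll_mk, FreeGroup.mk_toWord])
    rw [List.length_map] at h1
    exact h1

/-- A nontrivial element is detected by unitriangular matrices of size at most its length. -/
theorem exists_detect (w : FreeGroup α) (hw : w ≠ 1) : ∃ (p M : ℕ) (_ : Fact p.Prime)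
    (f : FreeGroup α →* UT p M), 1 ≤ M ∧ M ≤ w.norm ∧ co (act (f w) (ev p M)) 0 ≠ 0 := by
  classical
  obtain ⟨l, hne, h0, hc, hlw, hlen⟩ := exists_syll w hw
  obtain ⟨p, hpl, hpp⟩ := Nat.exists_infinite_primes ((l.map fun s => s.2.natAbs).sum + 1)
  haveI hp : Fact p.Prime := ⟨hpp⟩
  have hex : ∀ n : ℤ, ∃ (a : ℕ) (c : ℤ), (n ≠ 0 → n = (p : ℤ) ^ a * c ∧ ¬ (p : ℤ) ∣ c) ∧
      (¬ (p : ℤ) ∣ n → a = 0) := by
    intro n
    by_cases hd : (p : ℤ) ∣ n
    · by_cases hn : n = 0
      · exact ⟨0, 0, fun h => absurd hn h, fun h => absurd hd h⟩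
      · have h1 : FiniteMultiplicity (p : ℤ) n := by
          rw [Int.finiteMultiplicity_iff]
          refine ⟨?_, hn⟩
          rw [Int.natAbs_natCast]
          exact hpp.ne_one
        obtain ⟨c, h2, h3⟩ := h1.exists_eq_pow_mul_and_not_dvd
        exact ⟨_, c, fun _ => ⟨h2, h3⟩, fun h => absurd hd h⟩
    · exact ⟨0, n, fun _ => ⟨by simp, hd⟩, fun _ => rfl⟩
  choose a c hac using hex
  have hnd : ∀ s ∈ l, a s.2 = 0 := by
    intro s hs
    apply (hac s.2).2
    intro hd
    have h1 : p ≤ s.2.natAbs := Nat.le_of_dvd (Int.natAbs_pos.2 (h0 s hs))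
      (Int.natCast_dvd.1 hd)
    have h2 : s.2.natAbs ≤ (l.map fun s => s.2.natAbs).sum :=
      List.single_le_sum (fun _ _ => Nat.zero_le _) _ (List.mem_map_of_mem hs)
    omega
  have hlp : ∀ l' : List (α × ℤ), (∀ s ∈ l', a s.2 = 0) → (path p a l').length = l'.length := by
    intro l'
    induction l' with
    | nil => intro _; rfl
    | cons s l' ih =>
      intro h
      rw [path_cons, List.length_append, List.length_replicate, h s List.mem_cons_self, pow_zero,
        ih (fun s hs => h s (List.mem_cons_of_mem _ hs)), List.length_cons, add_comm]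
  have hlen2 := hlp l hnd
  refine ⟨p, (path p a l).length, hp, FreeGroup.lift (fun x => Al (path p a l) x), ?_, ?_, ?_⟩
  · rw [hlen2]
    exact List.length_pos_iff.2 hne
  · rw [hlen2]
    exact hlen
  · obtain ⟨-, h2⟩ := chain_main a c (fun n hn => (hac n).1 hn) l h0 hc l [] (by simp)
    have h3 : (FreeGroup.lift (fun x => (Al (path p a l) x : UT p (path p a l).length))) w =
        (l.map fun s => (Al (path p a l) s.1 : UT p (path p a l).length) ^ s.2).prod := by
      conv_lhs => rw [← hlw]
      rw [map_list_prod, List.map_map]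
      congr 1
      apply List.map_congr_left
      intro s _
      simp only [Function.comp, map_zpow, FreeGroup.lift_apply_of]
    rw [h3]
    exact h2

end Syll

/-- Nontrivial elements of the lower central series are long. -/
theorem norm_of_mem_lcs {α : Type} [DecidableEq α] (w : FreeGroup α) (hw : w ≠ 1) (n : ℕ)
    (h : w ∈ (⊤ : Subgroup (FreeGroup α)).lowerCentralSeries n) : n + 1 ≤ w.norm := by
  obtain ⟨p, M, hp, f, h1, h2, h3⟩ := exists_detect w hw
  exact (le_of_mem_HM (lcs_le f n h) h1 h3).trans h2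

/-- Nontrivial elements of the derived series are long. -/
theorem norm_of_mem_derived {α : Type} [DecidableEq α] (w : FreeGroup α) (hw : w ≠ 1) (d : ℕ)
    (h : w ∈ derivedSeries (FreeGroup α) d) : 2 ^ d ≤ w.norm := by
  obtain ⟨p, M, hp, f, h1, h2, h3⟩ := exists_detect w hw
  exact (le_of_mem_HM (derived_le f d h) h1 h3).trans h2

end Vale.Agent.P215.H604
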